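import Vale.Agent.P161.Crit.Main
import Vale.Agent.P161.Converse.Threshold
import Mathlib.Analysis.SpecialFunctions.Artanh

/-!
The exact set of inverse temperatures for which the free Ising state on a regular tree is a
factor of IID.
-/

namespace Vale.Agent.Results.P161.FactorOfIIDThreshold

open MeasureTheory
open scoped unitInterval Classical

/-- The free Ising state at `β ≥ 0` is a factor of IID iff `tanh β ≤ 1 / √(d-1)`. -/
theorem result {V : Type*} (G : SimpleGraph V) [G.LocallyFinite] (d : ℕ) (hd : 3 ≤ d)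
    (hG : G.IsTree) (hreg : G.IsRegularOfDegree d) (β : ℝ) (hβ : 0 ≤ β) :
    (∃ Φ : (V → I) → V → Bool, Measurable Φ ∧
      (∀ φ : G ≃g G, ∀ᵐ ω ∂(Measure.infinitePi fun _ : V => (volume : Measure I)),
        Φ (fun v => ω (φ.symm v)) = fun v => Φ ω (φ.symm v)) ∧
      ∀ D : Finset V, (G.induce (D : Set V)).Connected → ∀ η : V → Bool,
        (Measure.infinitePi fun _ : V => (volume : Measure I))
            {ω | ∀ v ∈ D, Φ ω v = η v} =
          ENNReal.ofReal (1 / 2 * ∏ e ∈ D.sym2.filter (fun e => e ∈ G.edgeSet),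
            if (e.map η).IsDiag then (1 + Real.tanh β) / 2 else (1 - Real.tanh β) / 2)) ↔
      Real.tanh β ≤ 1 / Real.sqrt ((d : ℝ) - 1) := by
  have : Countable V := Vale.Agent.P161.countable_vertices hG
  have hθ0 : 0 ≤ Real.tanh β := by
    rw [Real.tanh_eq_sinh_div_cosh]
    exact div_nonneg (Real.sinh_nonneg_iff.2 hβ) (Real.cosh_pos β).le
  have hθ1 : Real.tanh β < 1 := Real.tanh_lt_one β
  set θ := Real.tanh β
  have hd1 : (0 : ℝ) < (d : ℝ) - 1 := by
    have : (3 : ℝ) ≤ d := by exact_mod_cast hd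
    linarith
  have hs := Real.sqrt_pos.2 hd1
  have hwt : ∀ (D : Finset V) (η : V → Bool),
      Vale.Agent.P161.wt G θ D (D.filter fun u => η u = true) =
        1 / 2 * ∏ e ∈ D.sym2.filter (fun e => e ∈ G.edgeSet),
          if (e.map η).IsDiag then (1 + θ) / 2 else (1 - θ) / 2 := by
    intro D η
    rw [Vale.Agent.P161.wt]
    congr 1
    refine Finset.prod_congr ?_ fun e he' => ?_
    · ext e
      simp [Vale.Agent.P161.edgesIn]
    · have hD' := (Finset.mem_filter.1 he').1
      induction e using Sym2.ind with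
      | _ a b =>
        rw [Finset.mk_mem_sym2_iff] at hD'
        simp only [Vale.Agent.P161.ew_mk, Sym2.map_mk, Sym2.mk_isDiag_iff,
          Vale.Agent.P161.spin, Finset.mem_filter, hD'.1, hD'.2, true_and]
        cases η a <;> cases η b <;> simp [sub_eq_add_neg]
  constructor
  · rintro ⟨Φ, hm, he, hlaw⟩
    have h := Vale.Agent.P161.Converse.threshold (θ := θ) hm
      (fun D hD η => by
        rw [measureReal_def]
        refine (congrArg ENNReal.toReal (hlaw D hD η)).trans ?_
        rw [← hwt, ENNReal.toReal_ofReal (Vale.Agent.P161.wt_pos hθ0 hθ1 _ _).le])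
      hG hd hreg he hθ0
    rw [le_div_iff₀ hs]
    have h2 : (θ * Real.sqrt ((d : ℝ) - 1)) ^ 2 ≤ 1 := by
      rw [mul_pow, Real.sq_sqrt hd1.le, mul_comm]
      exact h
    nlinarith [mul_nonneg hθ0 hs.le]
  · intro hθ
    have hsub : ((d : ℝ) - 1) * θ ^ 2 ≤ 1 := by
      rw [le_div_iff₀ hs] at hθ
      have h2 : (θ * Real.sqrt ((d : ℝ) - 1)) ^ 2 ≤ 1 := pow_le_one₀ (by positivity) hθ
      rwa [mul_pow, Real.sq_sqrt hd1.le, mul_comm] at h2
    obtain ⟨Φ, hm, he, hlaw⟩ := Vale.Agent.P161.Crit.exists_factor_le hG hd hreg hθ0 hsub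
    refine ⟨Φ, hm, fun φ => ae_of_all _ (he φ), fun D hD η => ?_⟩
    rw [← ofReal_measureReal (measure_ne_top _ _), hlaw D hD η, hwt]

end Vale.Agent.Results.P161.FactorOfIIDThreshold
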